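import Vale.Agent.P050.R2.H300.Basic
import Vale.Agent.P050.R2.H261.Close

set_option linter.all false

/-!
Dense targets: the adaptive path expansion (M5a, M5b).
-/

open MeasureTheory Finset

namespace Vale.Agent.P050.Dense

open Vale.Agent.P050

section

variable {V : Type*} [Fintype V] [DecidableEq V] {Ω : Type*} [MeasurableSpace Ω]
variable (μ : Measure Ω) [IsProbabilityMeasure μ] {U : Sym2 Ω → ℝ} {κ η : ℝ}

/-- ordered expansion of a product `∏ (1 + g)` -/
theorem prod_one_add_ord {ι : Type*} [DecidableEq ι] (o : ι → ℕ) (ho : Function.Injective o)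
    (s : Finset ι) (g : ι → ℝ) :
    ∏ i ∈ s, (1 + g i) = 1 + ∑ i ∈ s, g i * ∏ j ∈ s.filter (fun j => o j < o i), (1 + g j) := by
  rw [prod_add_ord o ho s (fun _ => 1) g]
  simp

theorem bm_U1 (hU : Good U 1) (t : Ω) : BM (fun y : Ω => U s(t, y)) :=
  hU.bm_two.comp (g := fun y : Ω => (t, y)) (by fun_prop)

theorem bm_U2 (hU : Good U 1) (t : Ω) : BM (fun y : Ω => U s(y, t)) :=
  hU.bm_two.comp (g := fun y : Ω => (y, t)) (by fun_prop)

/-- the second neighbour -/
theorem expand_inner (hU : Ker μ U κ η) {o : V → ℕ} (ho : Function.Injective o) (S : Finset V)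
    (t : Ω) (z : V → Ω) :
    ∫ y, U s(t, y) * ∏ c ∈ S, (1 + U s(z c, y)) ∂μ =
      ∑ a ∈ S, ∫ y, U s(t, y) * U s(y, z a) *
        ∏ c ∈ S.filter (fun c => o c < o a), (1 + U s(z c, y)) ∂μ := by
  have e1 : ∀ y, U s(t, y) * ∏ c ∈ S, (1 + U s(z c, y)) = U s(t, y) +
      ∑ a ∈ S, U s(t, y) * U s(y, z a) *
        ∏ c ∈ S.filter (fun c => o c < o a), (1 + U s(z c, y)) := by
    intro y
    rw [prod_one_add_ord o ho S (fun c => U s(z c, y)), mul_add, mul_one, Finset.mul_sum]
    congr 1
    refine Finset.sum_congr rfl fun a _ => ?_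
    rw [Sym2.eq_swap (a := z a) (b := y)]
    ring
  simp only [e1]
  have hb : ∀ a, BM (fun y : Ω => U s(t, y) * U s(y, z a) *
        ∏ c ∈ S.filter (fun c => o c < o a), (1 + U s(z c, y))) := fun a =>
    ((bm_U1 hU.good t).mul (bm_U2 hU.good (z a))).mul (bm_prod_at hU.good _ z)
  rw [integral_add ((bm_U1 hU.good t).integrable _)
    ((BM.finsum S fun a _ => hb a).integrable _), integral_finset_sum]
  · have h0 : ∫ y, U s(t, y) ∂μ = 0 := hU.zero t
    rw [h0, zero_add]
  · intro a _
    exact (hb a).integrable _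

/-- the second neighbour, with the new vertex `b` -/
theorem expand_outer (hU : Ker μ U κ η) {o : V → ℕ} (ho : Function.Injective o) (S : Finset V)
    {a' b : V} (hab : a' ≠ b) (hbS : b ∉ S) {f : (V → Ω) → ℝ} (hf : BM f) (hi : Ind b f) :
    ∫ z, f z * (∫ y, U s(z a', y) * ∏ c ∈ S, (1 + U s(z c, y)) ∂μ) ∂(piM V μ) =
      ∑ a ∈ S, ∫ z, f z * (U s(z a', z b) * U s(z b, z a) *
        ∏ c ∈ S.filter (fun c => o c < o a), (1 + U s(z c, z b))) ∂(piM V μ) := by
  have hb : ∀ a, BM (fun q : (V → Ω) × Ω => U s(q.1 a', q.2) * U s(q.2, q.1 a) *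
        ∏ c ∈ S.filter (fun c => o c < o a), (1 + U s(q.1 c, q.2))) := by
    intro a
    refine (BM.mul ?_ ?_).mul (bm_prod hU.good _)
    · exact hU.good.bm_two.comp (g := fun q : (V → Ω) × Ω => (q.1 a', q.2)) (by fun_prop)
    · exact hU.good.bm_two.comp (g := fun q : (V → Ω) × Ω => (q.2, q.1 a)) (by fun_prop)
  have e1 : ∀ z, f z * (∫ y, U s(z a', y) * ∏ c ∈ S, (1 + U s(z c, y)) ∂μ) =
      ∑ a ∈ S, f z * ∫ y, U s(z a', y) * U s(y, z a) *
        ∏ c ∈ S.filter (fun c => o c < o a), (1 + U s(z c, y)) ∂μ := by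
    intro z
    rw [expand_inner μ hU ho S (z a') z, Finset.mul_sum]
  simp only [e1]
  rw [integral_finset_sum]
  · refine Finset.sum_congr rfl fun a ha => ?_
    refine int_fresh μ (v := b) hf hi
      (h := fun z y => U s(z a', y) * U s(y, z a) *
        ∏ c ∈ S.filter (fun c => o c < o a), (1 + U s(z c, y))) (hb a) ?_
    intro z t y
    have hab2 : a ≠ b := fun h => hbS (h ▸ ha)
    simp only [Function.update_of_ne hab, Function.update_of_ne hab2]
    congr 1
    refine Finset.prod_congr rfl fun c hc => ?_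
    have : c ≠ b := fun h => hbS (h ▸ (Finset.mem_filter.1 hc).1)
    rw [Function.update_of_ne this]
  · intro a _
    exact (hf.mul ((hb a).integral_right μ)).integrable _

/-- `Phi` as a sum over the last neighbour -/
theorem Phi_eq_sum (hU : Ker μ U κ η) (N : V → Finset V) {o : V → ℕ} (ho : Function.Injective o)
    (b : V) (z : V → Ω) :
    Phi μ U N ∅ b z = ∑ a₀ ∈ N b, ∫ y, U s(z a₀, y) *
      ∏ c ∈ (N b).filter (fun c => o c < o a₀), (1 + U s(z c, y)) ∂μ := by
  unfold Phi
  rw [Finset.sdiff_empty]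
  have e1 : ∀ y, (∏ a ∈ N b, (1 + U s(z a, y))) - 1 = ∑ a₀ ∈ N b, U s(z a₀, y) *
      ∏ c ∈ (N b).filter (fun c => o c < o a₀), (1 + U s(z c, y)) := by
    intro y
    rw [prod_one_add_ord o ho (N b) (fun c => U s(z c, y))]
    ring
  simp only [e1]
  rw [integral_finset_sum]
  intro a _
  exact ((bm_U1 hU.good (z a)).mul (bm_prod_at hU.good _ z)).integrable _

/-- products of `Phi`s do not depend on the vertices in `B` -/
theorem prod_Phi_ind {N : V → Finset V} {B : Finset V} {D : ℕ} (hN : Bip N B D) {A : Finset V}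
    (hA : A ⊆ B) (R : V → Finset V) {v : V} (hv : v ∈ B) :
    Ind v (fun z => ∏ b ∈ A, Phi μ U N (R b) b z) := by
  intro x t
  refine Finset.prod_congr rfl fun b hb => ?_
  refine Phi_ind μ N (R b) b ?_ x t
  intro h
  exact hN.out b (hA hb) v (Finset.mem_sdiff.1 h).1 hv

/-- M5a: first step (no marked vertex) -/
theorem expand_first {N : V → Finset V} {B γ : Finset V} {D : ℕ} (hN : Bip N B D)
    (hU : Ker μ U κ η) (hγ : γ ⊆ B) {o : V → ℕ} (ho : Function.Injective o) {b : V} (hb : b ∈ γ) :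
    phi μ U N γ = ∑ a₀ ∈ N b, ∑ a ∈ (N b).filter (fun a => o a < o a₀),
      ∫ z, JJ μ U N o false γ a₀ [(b, a)] z ∂(piM V μ) := by
  have hbB : b ∈ B := hγ hb
  have hbN : ∀ a ∈ N b, a ≠ b := fun a ha h => hN.out b hbB a ha (h ▸ hbB)
  set f : (V → Ω) → ℝ := fun z => ∏ b' ∈ γ.erase b, Phi μ U N ∅ b' z with hf
  have hfb : BM f := BM.finprod _ fun b' _ => bm_Phi μ hU.good N _ b'
  have hfi : Ind b f := prod_Phi_ind μ hN ((Finset.erase_subset _ _).trans hγ) (fun _ => ∅) hbB
  have e1 : phi μ U N γ = ∫ z, ∑ a₀ ∈ N b, f z * ∫ y, U s(z a₀, y) *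
      ∏ c ∈ (N b).filter (fun c => o c < o a₀), (1 + U s(z c, y)) ∂μ ∂(piM V μ) := by
    unfold phi
    congr 1
    ext z
    rw [← Finset.mul_prod_erase γ _ hb, Phi_eq_sum μ hU N ho b z, Finset.sum_mul]
    refine Finset.sum_congr rfl fun a₀ _ => ?_
    rw [mul_comm]
  rw [e1, integral_finset_sum]
  · refine Finset.sum_congr rfl fun a₀ ha₀ => ?_
    have hbS : b ∉ (N b).filter (fun c => o c < o a₀) := fun h =>
      hbN b (Finset.mem_filter.1 h).1 rfl
    rw [expand_outer μ hU ho _ (hbN a₀ ha₀) hbS hfb hfi]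
    refine Finset.sum_congr rfl fun a ha => ?_
    congr 1
    ext z
    have hBs : γ \ Bs [(b, a)] = γ.erase b := by
      simp [Bs, Finset.sdiff_singleton_eq_erase]
    have hlt := (Finset.mem_filter.1 ha).2
    have hfil : ((N b).filter (fun c => o c < o a₀)).filter (fun c => o c < o a) =
        ((N b).erase a₀).filter (fun c => o c < o a) := by
      ext c
      simp only [Finset.mem_filter, Finset.mem_erase]
      constructor
      · rintro ⟨⟨h1, h2⟩, h3⟩
        refine ⟨⟨?_, h1⟩, h3⟩
        rintro rfl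
        exact lt_irrefl _ h2
      · rintro ⟨⟨_, h1⟩, h3⟩
        exact ⟨⟨h1, h3.trans hlt⟩, h3⟩
    unfold JJ
    rw [hBs]
    simp only [core, rem, lastA, Rdec, hf, hfil]
    simp
    ring
  · intro a _
    refine (hfb.mul ?_).integrable _
    have : BM (fun q : (V → Ω) × Ω => U s(q.1 a, q.2) *
      ∏ c ∈ (N b).filter (fun c => o c < o a), (1 + U s(q.1 c, q.2))) :=
      (hU.good.bm_two.comp (g := fun q : (V → Ω) × Ω => (q.1 a, q.2)) (by fun_prop)).mul
        (bm_prod hU.good _)
    exact this.integral_right μ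


/-! ### structure of paths -/

theorem Pth.mem {N : V → Finset V} {γ : Finset V} {a₀ : V} {L : List (V × V)}
    (hP : Pth N γ a₀ L) : ∀ b ∈ Bs L, b ∈ γ := by
  induction L with
  | nil => simp [Bs]
  | cons x L ih =>
    obtain ⟨b, a⟩ := x
    intro b' hb'
    simp only [Bs, List.map_cons, List.toFinset_cons, Finset.mem_insert] at hb'
    rcases hb' with rfl | h
    · exact hP.2.1
    · exact ih hP.1 b' h

theorem Pth.suffix {N : V → Finset V} {γ : Finset V} {a₀ : V} {L₁ L₂ : List (V × V)}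
    (hP : Pth N γ a₀ (L₁ ++ L₂)) : Pth N γ a₀ L₂ := by
  induction L₁ with
  | nil => exact hP
  | cons x L ih =>
    obtain ⟨b, a⟩ := x
    exact ih hP.1

theorem Bs_append (L₁ L₂ : List (V × V)) : Bs (L₁ ++ L₂) = Bs L₁ ∪ Bs L₂ := by
  simp [Bs]

theorem Bs_cons (b a : V) (L : List (V × V)) : Bs ((b, a) :: L) = insert b (Bs L) := by
  simp [Bs]

theorem Pth.notMem_of_append {N : V → Finset V} {γ : Finset V} {a₀ : V} {L₁ L₂ : List (V × V)}
    (hP : Pth N γ a₀ (L₁ ++ L₂)) : ∀ b ∈ Bs L₂, b ∉ Bs L₁ := by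
  induction L₁ with
  | nil => simp [Bs]
  | cons x L ih =>
    obtain ⟨b, a⟩ := x
    intro b' hb'
    rw [Bs_cons, Finset.mem_insert, not_or]
    refine ⟨?_, ih hP.1 b' hb'⟩
    rintro rfl
    apply hP.2.2.1
    change b' ∈ Bs (L ++ L₂)
    rw [Bs_append]
    exact Finset.mem_union_right _ hb'

/-- the path factors depend only on the vertices of the path and on the neighbours of its
`γ`-vertices -/
theorem core_ind (U : Sym2 Ω → ℝ) (N : V → Finset V) (o : V → ℕ) {a₀ : V} {L : List (V × V)}
    {v : V} (h1 : v ∉ vts a₀ L) (h2 : ∀ b ∈ Bs L, v ∉ N b) : Ind v (core U N o a₀ L) := by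
  induction L with
  | nil => intro x t; rfl
  | cons x L ih =>
    obtain ⟨b, a⟩ := x
    simp only [vts, List.mem_cons, not_or] at h1
    have hl : v ≠ lastA a₀ L := by
      cases L with
      | nil => simpa [vts, lastA] using h1.2.2
      | cons y L =>
        obtain ⟨b', a'⟩ := y
        simp only [vts, List.mem_cons, not_or] at h1
        exact h1.2.2.1
    have hb : v ∉ N b := h2 b (by simp [Bs])
    have ih' := ih h1.2.2 (fun b' hb' => h2 b' (by
      rw [Bs_cons]; exact Finset.mem_insert_of_mem hb'))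
    intro y t
    simp only [core]
    rw [ih' y t, Rdec_ind N o h1.2.1 (fun h => hb h.1) y t, Function.update_of_ne (Ne.symm hl),
      Function.update_of_ne (Ne.symm h1.2.1), Function.update_of_ne (Ne.symm h1.1)]

/-- the vertices of a path which are in `B` are its `γ`-vertices -/
theorem vts_inB {N : V → Finset V} {B γ : Finset V} {D : ℕ} (hN : Bip N B D) (hγ : γ ⊆ B)
    {a₀ : V} {L : List (V × V)} (ha₀ : a₀ ∉ B) (hP : Pth N γ a₀ L) {v : V} (hv : v ∈ B)
    (h : v ∈ vts a₀ L) : v ∈ Bs L := by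
  induction L with
  | nil =>
    simp only [vts, List.mem_singleton] at h
    exact absurd (h ▸ hv) ha₀
  | cons x L ih =>
    obtain ⟨b, a⟩ := x
    simp only [vts, List.mem_cons] at h
    rw [Bs_cons]
    rcases h with rfl | rfl | h
    · exact absurd hv (hN.out b (hγ hP.2.1) _ hP.2.2.2.2.1)
    · exact Finset.mem_insert_self _ _
    · exact Finset.mem_insert_of_mem (ih hP.1 h)

/-- the vertices of a path which are not in `B` are ends of initial segments -/
theorem vts_notB {N : V → Finset V} {γ : Finset V}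
    {a₀ : V} {L : List (V × V)} {v : V} (h : v ∈ vts a₀ L) :
    v ∈ Bs L ∨ ∃ L₁ L₂, L = L₁ ++ L₂ ∧ v = lastA a₀ L₂ := by
  induction L with
  | nil =>
    simp only [vts, List.mem_singleton] at h
    exact Or.inr ⟨[], [], rfl, h⟩
  | cons x L ih =>
    obtain ⟨b, a⟩ := x
    simp only [vts, List.mem_cons] at h
    rcases h with rfl | rfl | h
    · exact Or.inr ⟨[], _, rfl, rfl⟩
    · exact Or.inl (by simp [Bs])
    · rcases ih h with h' | ⟨L₁, L₂, hL, h'⟩
      · exact Or.inl (by rw [Bs_cons]; exact Finset.mem_insert_of_mem h')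
      · exact Or.inr ⟨(b, a) :: L₁, L₂, by rw [hL]; rfl, h'⟩

/-- the last vertex of a short path is not an earlier vertex, and not a neighbour of an earlier
vertex -/
theorem last_new {N : V → Finset V} {B γ : Finset V} {D : ℕ} (hN : Bip N B D) (hγ : γ ⊆ B)
    {k : ℕ} (hk : 2 ≤ k) (hg : GC N γ k) {a₀ : V} (ha₀ : a₀ ∉ B) {b a : V} {L : List (V × V)}
    (hP : Pth N γ a₀ ((b, a) :: L)) (hl : L.length + 2 ≤ k) :
    a ∉ vts a₀ L ∧ ∀ b' ∈ Bs L, a ∉ N b' := by
  have haB : a ∉ B := hN.out b (hγ hP.2.1) _ hP.2.2.2.2.1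
  constructor
  · intro h
    rcases vts_notB (N := N) (γ := γ) h with h' | ⟨L₁, L₂, rfl, h'⟩
    · exact haB (hγ (hP.1.mem a h'))
    · have := pth_close hN hγ hk hg (L₁ := (b, a) :: L₁) (L₂ := L₂) (a₀ := a₀) hP (by simp) h'
      simp only [List.length_cons, List.length_append] at this hl
      omega
  · intro b' hb' hab'
    have hsplit : ∃ L₁ L₂ a', L = L₁ ++ (b', a') :: L₂ := by
      simp only [Bs, List.mem_toFinset, List.mem_map] at hb'
      obtain ⟨⟨c, a'⟩, hc, rfl⟩ := hb'
      obtain ⟨L₁, L₂, rfl⟩ := List.append_of_mem hc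
      exact ⟨L₁, L₂, a', rfl⟩
    obtain ⟨L₁, L₂, a', rfl⟩ := hsplit
    have hP' : Pth N γ a₀ (((b, a) :: L₁) ++ (b', a') :: L₂) := hP
    have hsuf : Pth N γ a₀ ((b', a') :: L₂) := hP'.suffix
    have := pth_close' hN hγ hk hg (L₁ := (b, a) :: L₁) (L₂ := (b', a') :: L₂) (a₀ := a₀) hP'
      (by simp) (b := b') hsuf.2.1 (hP'.notMem_of_append b' (by simp [Bs])) hab'
      hsuf.2.2.2.2.1
    simp only [List.length_cons, List.length_append] at this hl
    omega

/-- nothing has been removed from the neighbours of the next vertex -/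
theorem rem_empty {N : V → Finset V} {B γ : Finset V} {D : ℕ} (hN : Bip N B D) (hγ : γ ⊆ B)
    {k : ℕ} (hk : 2 ≤ k) (hg : GC N γ k) {fl : Bool} {o : V → ℕ} {a₀ : V} {L : List (V × V)}
    (hP : Pth N γ a₀ L) (hl : L.length + 1 ≤ k) (hfl' : fl = true → 2 * (L.length + 1) ≤ k + 1)
    {b : V} (hb : b ∈ γ) (hbL : b ∉ Bs L) (h : lastA a₀ L ∈ N b) :
    rem N o fl a₀ b L = ∅ := by
  have key : ∀ L₂ L₁ : List (V × V), L = L₁ ++ L₂ → rem N o fl a₀ b L₂ = ∅ := by
    intro L₂
    induction L₂ with
    | nil => intro L₁ _; rfl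
    | cons x L₃ ih =>
      obtain ⟨b₁, a₁⟩ := x
      intro L₁ hL
      simp only [rem]
      rw [ih (L₁ ++ [(b₁, a₁)]) (by simp [hL]), Finset.empty_union, if_neg]
      rintro ⟨h1, h2, _⟩
      have hL' : L = (L₁ ++ [(b₁, a₁)]) ++ L₃ := by simp [hL]
      have hbL' : b ∉ Bs (L₁ ++ [(b₁, a₁)]) := by
        intro hh
        apply hbL
        rw [hL', Bs_append]
        exact Finset.mem_union_left _ hh
      have := pth_close' hN hγ hk hg (L₁ := L₁ ++ [(b₁, a₁)]) (L₂ := L₃) (a₀ := a₀)
        (hL' ▸ hP) (by simp) hb hbL' (hL' ▸ h) h2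
      have hlen : L.length = (L₁ ++ [(b₁, a₁)]).length + L₃.length := by
        rw [hL', List.length_append]
      rcases h1 with h1 | h1
      · have : 0 < L₃.length := List.length_pos_of_ne_nil h1
        omega
      · have := hfl' h1
        omega
  exact key L [] rfl


/-- M5b: one double step -/
theorem expand_step {N : V → Finset V} {B γ : Finset V} {D : ℕ} (hN : Bip N B D)
    (hU : Ker μ U κ η) (hγ : γ ⊆ B) {o : V → ℕ} (ho : Function.Injective o)
    {k : ℕ} (hk : 2 ≤ k) (hg : GC N γ k) {fl : Bool} {g : Ω → ℝ} (hgm : BM g)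
    (hg0 : fl = true → ∫ s, g s ∂μ = 0) {a₀ : V} {L : List (V × V)} (ha₀ : a₀ ∉ B)
    (hP : Pth N γ a₀ L) (hl : L.length + 1 ≤ k) (hfl : fl = true ∨ L ≠ [])
    (hfl' : fl = true → 2 * (L.length + 1) ≤ k + 1) :
    ∫ z, g (z a₀) * JJ μ U N o fl γ a₀ L z ∂(piM V μ) =
      ∑ b ∈ (γ \ Bs L).filter (fun b => lastA a₀ L ∈ N b), ∑ a ∈ (N b).erase (lastA a₀ L),
        ∫ z, g (z a₀) * JJ μ U N o fl γ a₀ ((b, a) :: L) z ∂(piM V μ) := by
  set e := lastA a₀ L with he
  set A := γ \ Bs L with hA
  set T := A.filter (fun b => e ∈ N b) with hT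
  have hAγ : A ⊆ γ := Finset.sdiff_subset
  have hTA : T ⊆ A := Finset.filter_subset _ _
  have heB : e ∉ B := by
    cases L with
    | nil => exact ha₀
    | cons x L =>
      obtain ⟨b, a⟩ := x
      exact hN.out b (hγ hP.2.1) _ hP.2.2.2.2.1
  -- nothing removed at the vertices of `T`
  have hrem : ∀ b ∈ T, rem N o fl a₀ b L = ∅ := by
    intro b hb
    have hb' := Finset.mem_filter.1 hb
    have hbA := Finset.mem_sdiff.1 hb'.1
    exact rem_empty hN hγ hk hg hP hl hfl' hbA.1 hbA.2 hb'.2
  -- the terms of the telescoping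
  set P : V → (V → Ω) → ℝ := fun b => Phi μ U N (rem N o fl a₀ b L) b with hPd
  set Q : V → (V → Ω) → ℝ := fun b => Phi μ U N {e} b with hQd
  set R : V → (V → Ω) → ℝ := fun b z => ∫ y, U s(z e, y) *
    ∏ c ∈ (N b).erase e, (1 + U s(z c, y)) ∂μ with hRd
  have hbP : ∀ b, BM (P b) := fun b => bm_Phi μ hU.good N _ b
  have hbQ : ∀ b, BM (Q b) := fun b => bm_Phi μ hU.good N _ b
  have hbR : ∀ b, BM (R b) := by
    intro b
    have : BM (fun q : (V → Ω) × Ω => U s(q.1 e, q.2) *
      ∏ c ∈ (N b).erase e, (1 + U s(q.1 c, q.2))) :=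
      (hU.good.bm_two.comp (g := fun q : (V → Ω) × Ω => (q.1 e, q.2)) (by fun_prop)).mul
        (bm_prod hU.good _)
    exact this.integral_right μ
  have hPQR : ∀ b ∈ T, ∀ z, P b z = Q b z + R b z := by
    intro b hb z
    have hb' := Finset.mem_filter.1 hb
    simp only [hPd, hQd, hRd, hrem b hb]
    rw [Phi_split μ hU N ∅ hb'.2 (Finset.notMem_empty e) z]
    simp [Finset.sdiff_singleton_eq_erase]
  set F : (V → Ω) → ℝ := fun z => g (z a₀) * core U N o a₀ L z with hF
  have hbg : BM (fun z : V → Ω => g (z a₀)) := hgm.comp (measurable_pi_apply a₀)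
  have hbF : BM F := hbg.mul (bm_core hU.good N o a₀ L)
  -- the factor of the term `b`
  set E : V → (V → Ω) → ℝ := fun b z => F z * ∏ b' ∈ A.erase b,
    Phi μ U N (rem N o fl a₀ b' L ∪ (if e ∈ N b' ∧ o b < o b' then {e} else ∅)) b' z with hE
  have hbE : ∀ b, BM (E b) := fun b => hbF.mul (BM.finprod _ fun b' _ => bm_Phi μ hU.good N _ b')
  -- the telescoping
  have key : ∀ z, g (z a₀) * JJ μ U N o fl γ a₀ L z =
      F z * ((∏ b ∈ A \ T, P b z) * ∏ b ∈ T, Q b z) + ∑ b ∈ T, E b z * R b z := by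
    intro z
    have h1 : g (z a₀) * JJ μ U N o fl γ a₀ L z = F z * ((∏ b ∈ A \ T, P b z) * ∏ b ∈ T, P b z) := by
      rw [Finset.prod_sdiff hTA]
      simp only [hF, hPd, JJ]
      ring
    have h2 : ∏ b ∈ T, P b z = ∏ b ∈ T, (Q b z + R b z) :=
      Finset.prod_congr rfl fun b hb => hPQR b hb z
    rw [h1, h2, prod_add_ord o ho T (fun b => Q b z) (fun b => R b z), mul_add, mul_add,
      Finset.mul_sum, Finset.mul_sum]
    congr 1
    refine Finset.sum_congr rfl fun b hb => ?_
    have hlt : ∏ j ∈ T.filter (fun j => o j < o b), (Q j z + R j z) =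
        ∏ j ∈ T.filter (fun j => o j < o b), P j z :=
      Finset.prod_congr rfl fun j hj => (hPQR j (Finset.mem_filter.1 hj).1 z).symm
    rw [hlt]
    simp only [hE]
    have hsplit : ∏ b' ∈ A.erase b,
        Phi μ U N (rem N o fl a₀ b' L ∪ (if e ∈ N b' ∧ o b < o b' then {e} else ∅)) b' z =
        (∏ b' ∈ A \ T, P b' z) * ((∏ j ∈ T.filter (fun j => o j < o b), P j z) *
          ∏ j ∈ T.filter (fun j => o b < o j), Q j z) := by
      have hbT : b ∈ T := hb
      have e1 : A.erase b = (A \ T) ∪ (T.filter (fun j => o j < o b) ∪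
          T.filter (fun j => o b < o j)) := by
        ext j
        simp only [Finset.mem_erase, Finset.mem_union, Finset.mem_sdiff, Finset.mem_filter]
        constructor
        · rintro ⟨h1, h2⟩
          by_cases hj : j ∈ T
          · rcases lt_trichotomy (o j) (o b) with h | h | h
            · exact Or.inr (Or.inl ⟨hj, h⟩)
            · exact absurd (ho h) h1
            · exact Or.inr (Or.inr ⟨hj, h⟩)
          · exact Or.inl ⟨h2, hj⟩
        · rintro (⟨h1, h2⟩ | ⟨h1, h2⟩ | ⟨h1, h2⟩)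
          · exact ⟨fun h => h2 (h ▸ hbT), h1⟩
          · exact ⟨fun h => absurd h2 (by rw [h]; exact lt_irrefl _), hTA h1⟩
          · exact ⟨fun h => absurd h2 (by rw [h]; exact lt_irrefl _), hTA h1⟩
      rw [e1, Finset.prod_union, Finset.prod_union]
      · congr 1
        · refine Finset.prod_congr rfl fun b' hb' => ?_
          rw [Finset.mem_sdiff] at hb'
          have hn : ¬ (e ∈ N b' ∧ o b < o b') := fun h =>
            hb'.2 (Finset.mem_filter.2 ⟨hb'.1, h.1⟩)
          rw [if_neg hn, Finset.union_empty]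
        · congr 1
          · refine Finset.prod_congr rfl fun b' hb' => ?_
            rw [Finset.mem_filter] at hb'
            have hn : ¬ (e ∈ N b' ∧ o b < o b') := fun h => lt_asymm h.2 hb'.2
            rw [if_neg hn, Finset.union_empty]
          · refine Finset.prod_congr rfl fun b' hb' => ?_
            rw [Finset.mem_filter] at hb'
            rw [if_pos ⟨(Finset.mem_filter.1 hb'.1).2, hb'.2⟩, hrem b' hb'.1, Finset.empty_union]
      · rw [Finset.disjoint_left]
        intro j h1 h2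
        exact lt_asymm (Finset.mem_filter.1 h1).2 (Finset.mem_filter.1 h2).2
      · rw [Finset.disjoint_left]
        intro j h1 h2
        rw [Finset.mem_union] at h2
        rcases h2 with h2 | h2
        · exact (Finset.mem_sdiff.1 h1).2 (Finset.mem_filter.1 h2).1
        · exact (Finset.mem_sdiff.1 h1).2 (Finset.mem_filter.1 h2).1
    rw [hsplit]
    ring
  -- the term without a next vertex
  have hzero : ∫ z, F z * ((∏ b ∈ A \ T, P b z) * ∏ b ∈ T, Q b z) ∂(piM V μ) = 0 := by
    have hbPQ : BM (fun z => (∏ b ∈ A \ T, P b z) * ∏ b ∈ T, Q b z) :=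
      (BM.finprod _ fun b _ => hbP b).mul (BM.finprod _ fun b _ => hbQ b)
    have hiPQ : Ind e (fun z => (∏ b ∈ A \ T, P b z) * ∏ b ∈ T, Q b z) := by
      intro x t
      dsimp only
      congr 1
      · refine Finset.prod_congr rfl fun b hb => ?_
        refine Phi_ind μ N _ b ?_ x t
        intro h
        rw [Finset.mem_sdiff] at hb
        exact hb.2 (Finset.mem_filter.2 ⟨hb.1, (Finset.mem_sdiff.1 h).1⟩)
      · refine Finset.prod_congr rfl fun b hb => ?_
        refine Phi_ind μ N _ b ?_ x t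
        intro h
        exact (Finset.mem_sdiff.1 h).2 (Finset.mem_singleton_self e)
    cases L with
    | nil =>
      have hflt : fl = true := by
        rcases hfl with h | h
        · exact h
        · exact absurd rfl h
      have hea : e = a₀ := he
      have h1 : ∀ z, F z * ((∏ b ∈ A \ T, P b z) * ∏ b ∈ T, Q b z) =
          g (z e) * ((∏ b ∈ A \ T, P b z) * ∏ b ∈ T, Q b z) := by
        intro z
        simp only [hF, core, mul_one, hea]
      simp only [h1]
      have h2 := integral_mul_of_ind μ {e} (fun z : V → Ω => g (z e))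
        (fun z => (∏ b ∈ A \ T, P b z) * ∏ b ∈ T, Q b z)
        (hgm.comp (measurable_pi_apply e)) hbPQ (by
          intro v hv x t
          rw [Finset.mem_singleton] at hv
          simp only [Function.update_of_ne (Ne.symm hv)]) (by
          intro v hv
          rw [Finset.mem_singleton] at hv
          rw [hv]
          exact hiPQ)
      rw [h2, integral_eval μ e hgm, hg0 hflt, zero_mul]
    | cons x L' =>
      obtain ⟨b₁, a₁⟩ := x
      have hea : e = a₁ := he
      have hlen : L'.length + 2 ≤ k := by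
        rw [List.length_cons] at hl
        omega
      have hnew := last_new hN hγ hk hg ha₀ hP hlen
      have hb₁ : b₁ ∈ B := hγ hP.2.1
      have hne1 : b₁ ≠ e := fun h => heB (h ▸ hb₁)
      have hgi : a₀ ≠ e := by
        rw [hea]
        rintro rfl
        apply hnew.1
        have : ∀ L : List (V × V), ∀ a : V, a ∈ vts a L := by
          intro L a
          induction L with
          | nil => simp [vts]
          | cons x L ih =>
            obtain ⟨b, c⟩ := x
            simp [vts, ih]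
        exact this L' a₀
      have hlast : lastA a₀ L' ≠ e := by
        rw [hea]
        exact (hP.2.2.2.2.2).symm
      have hbody : ∀ z, F z * ((∏ b ∈ A \ T, P b z) * ∏ b ∈ T, Q b z) =
          U s(z b₁, z e) * (g (z a₀) * U s(z (lastA a₀ L'), z b₁) *
            Rdec U N o b₁ (lastA a₀ L') a₁ z * core U N o a₀ L' z *
            ((∏ b ∈ A \ T, P b z) * ∏ b ∈ T, Q b z)) := by
        intro z
        simp only [hF, core, hea]
        ring
      simp only [hbody]
      refine int_edge_zero μ hU hne1 ?_ ?_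
      · exact ((((hbg.mul (bm_U hU.good _ _)).mul (bm_Rdec hU.good N o _ _ _)).mul
          (bm_core hU.good N o a₀ L')).mul hbPQ)
      · intro x t
        have i1 := Rdec_ind (U := U) N o (b := b₁) (a' := lastA a₀ L') (a := a₁) (v := e)
          (Ne.symm hne1) (fun h => by
            have := h.2.2
            rw [hea] at this
            exact lt_irrefl _ this) x t
        have i2 := core_ind U N o (a₀ := a₀) (L := L') (v := e) (by rw [hea]; exact hnew.1)
          (by rw [hea]; exact hnew.2) x t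
        have i3 := hiPQ x t
        dsimp only at i3 ⊢
        rw [i1, i2, i3, Function.update_of_ne hgi, Function.update_of_ne hlast,
          Function.update_of_ne hne1]
  -- assembly
  simp only [key]
  have hbK : BM (fun z => F z * ((∏ b ∈ A \ T, P b z) * ∏ b ∈ T, Q b z)) :=
    hbF.mul ((BM.finprod _ fun b _ => hbP b).mul (BM.finprod _ fun b _ => hbQ b))
  rw [integral_add (hbK.integrable _)
    ((BM.finsum T fun b _ => (hbE b).mul (hbR b)).integrable _), hzero, zero_add,
    integral_finset_sum]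
  · refine Finset.sum_congr rfl fun b hb => ?_
    have hb' := Finset.mem_filter.1 hb
    have hbA := Finset.mem_sdiff.1 hb'.1
    have hbB : b ∈ B := hγ hbA.1
    have heb : e ≠ b := fun h => heB (h ▸ hbB)
    have hbS : b ∉ (N b).erase e := fun h =>
      hN.out b hbB b (Finset.mem_of_mem_erase h) hbB
    have hiE : Ind b (E b) := by
      have i1 : Ind b (core U N o a₀ L) := by
        refine core_ind U N o ?_ ?_
        · intro h
          exact hbA.2 (vts_inB hN hγ ha₀ hP hbB h)
        · intro b' hb'' h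
          exact hN.out b' (hγ (hP.mem b' hb'')) b h hbB
      have i2 := prod_Phi_ind (U := U) μ hN (A := A.erase b)
        ((Finset.erase_subset _ _).trans (hAγ.trans hγ))
        (fun b' => rem N o fl a₀ b' L ∪ (if e ∈ N b' ∧ o b < o b' then {e} else ∅)) hbB
      intro x t
      have i1' := i1 x t
      have i2' := i2 x t
      simp only [hE, hF]
      dsimp only at i2'
      have hab : a₀ ≠ b := fun h => ha₀ (h ▸ hbB)
      rw [i1', i2', Function.update_of_ne hab]
    rw [expand_outer μ hU ho _ heb hbS (hbE b) hiE]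
    refine Finset.sum_congr rfl fun a ha => ?_
    congr 1
    ext z
    have hBs : γ \ Bs ((b, a) :: L) = A.erase b := by
      rw [Bs_cons, hA]
      ext j
      simp only [Finset.mem_sdiff, Finset.mem_insert, Finset.mem_erase, not_or]
      tauto
    have hLfl : L ≠ [] ∨ fl = true := hfl.symm
    simp only [JJ, hBs, core, rem, Rdec, hE, hF, hLfl, true_and, ← he]
    ring
  · intro b _
    exact ((hbE b).mul (hbR b)).integrable _

end

end Vale.Agent.P050.Dense
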